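import Vale.Agent.P011.H210.SplitReg

/-!
# Split regular matrices over the completions of a number field
-/

open NumberField IsDedekindDomain

namespace Vale.Agent.P011.H210

theorem isOpen_SR' {ι F : Type*} [Fintype ι] [DecidableEq ι] [i : NormedField F] [CompleteSpace F]
    (h : ∃ x : F, 1 < ‖x‖) : IsOpen (SR ι F) := by
  let i' : NontriviallyNormedField F := { i with non_trivial := h }
  exact @isOpen_SR ι F _ _ i' _

/-- The split regular matrices over a completion of a number field form an open set. -/
theorem isOpen_SR_adic {ι k : Type*} [Fintype ι] [DecidableEq ι] [Field k] [NumberField k]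
    (v : HeightOneSpectrum (𝓞 k)) : IsOpen (SR ι (v.adicCompletion k)) := by
  refine isOpen_SR' ?_
  obtain ⟨x, hx⟩ := v.valuation_exists_uniformizer k
  have hx0 : x ≠ 0 := by
    rintro rfl
    rw [map_zero] at hx
    exact absurd hx.symm (by simp)
  refine ⟨((x⁻¹ : k) : v.adicCompletion k), ?_⟩
  rw [Valued.toNormedField.one_lt_norm_iff, HeightOneSpectrum.valuedAdicCompletion_eq_valuation',
    map_inv₀, hx]
  rw [← WithZero.exp_neg, neg_neg, ← WithZero.exp_zero, WithZero.exp_lt_exp]
  exact one_pos

end Vale.Agent.P011.H210
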