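import Vale.Agent.P011.H210.SplitReg

/-!
# The base point

`D` a division ring, `f : D →+* M_n(F)`, `σ ∈ D` with `f σ` split regular, `E` a commutative
subfield of `D` containing `σ`. For finitely many fractional linear maps `h` with coefficients in
`E` there is `x = (s + w) (s + w')⁻¹`, `s = c₀ + c₁ σ`, such that all `f (h x)` are split regular.
-/

open Matrix Topology Filter

set_option linter.unusedSectionVars false

namespace Vale.Agent.P011.H210

section psi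

variable {D F ι : Type*} [DivisionRing D] [Field F] [Fintype ι] [DecidableEq ι]

/-- A matrix commuting with a diagonal matrix with pairwise different entries is diagonal. -/
theorem eq_diagonal_of_commute {a : ι → F} (ha : Function.Injective a) {M : Matrix ι ι F}
    (h : M * diagonal a = diagonal a * M) : M = diagonal fun j => M j j := by
  ext i j
  by_cases hij : i = j
  · subst hij
    simp
  · rw [diagonal_apply_ne _ hij]
    have h1 := congrFun (congrFun h i) j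
    rw [Matrix.mul_diagonal, Matrix.diagonal_mul] at h1
    have h2 : M i j * (a j - a i) = 0 := by
      rw [mul_sub, h1, mul_comm (a i), sub_self]
    exact (mul_eq_zero.mp h2).resolve_right (sub_ne_zero.mpr fun h3 => hij (ha h3).symm)

/-- The diagonal entries in a basis of eigenvectors. -/
def psi (f : D →+* Matrix ι ι F) (P : (Matrix ι ι F)ˣ) (j : ι) (x : D) : F :=
  (((P⁻¹ : (Matrix ι ι F)ˣ) : Matrix ι ι F) * f x * (P : Matrix ι ι F)) j j

variable {f : D →+* Matrix ι ι F} {P : (Matrix ι ι F)ˣ} {a : ι → F} {σ : D}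

theorem psi_diag (ha : Function.Injective a)
    (hσ : f σ = (P : Matrix ι ι F) * diagonal a * ((P⁻¹ : (Matrix ι ι F)ˣ) : Matrix ι ι F))
    {x : D} (hx : x * σ = σ * x) :
    f x = (P : Matrix ι ι F) * diagonal (fun j => psi f P j x) *
      ((P⁻¹ : (Matrix ι ι F)ˣ) : Matrix ι ι F) := by
  have hP : ((P⁻¹ : (Matrix ι ι F)ˣ) : Matrix ι ι F) * (P : Matrix ι ι F) = 1 := P.inv_mul
  have hP' : (P : Matrix ι ι F) * ((P⁻¹ : (Matrix ι ι F)ˣ) : Matrix ι ι F) = 1 := P.mul_inv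
  have h1 : ((P⁻¹ : (Matrix ι ι F)ˣ) : Matrix ι ι F) * f x * (P : Matrix ι ι F) * diagonal a =
      diagonal a * (((P⁻¹ : (Matrix ι ι F)ˣ) : Matrix ι ι F) * f x * (P : Matrix ι ι F)) := by
    have h2 : f x * f σ = f σ * f x := by rw [← map_mul, hx, map_mul]
    rw [hσ] at h2
    calc _ = ((P⁻¹ : (Matrix ι ι F)ˣ) : Matrix ι ι F) * (f x * ((P : Matrix ι ι F) * diagonal a *
          ((P⁻¹ : (Matrix ι ι F)ˣ) : Matrix ι ι F))) * (P : Matrix ι ι F) := by
          simp only [mul_assoc]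
          rw [hP, mul_one]
      _ = ((P⁻¹ : (Matrix ι ι F)ˣ) : Matrix ι ι F) * ((P : Matrix ι ι F) * diagonal a *
          ((P⁻¹ : (Matrix ι ι F)ˣ) : Matrix ι ι F) * f x) * (P : Matrix ι ι F) := by rw [h2]
      _ = (((P⁻¹ : (Matrix ι ι F)ˣ) : Matrix ι ι F) * (P : Matrix ι ι F)) * diagonal a *
          (((P⁻¹ : (Matrix ι ι F)ˣ) : Matrix ι ι F) * f x * (P : Matrix ι ι F)) := by
          simp only [mul_assoc]
      _ = _ := by rw [hP, one_mul]
  have h3 := eq_diagonal_of_commute ha h1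
  calc f x = ((P : Matrix ι ι F) * ((P⁻¹ : (Matrix ι ι F)ˣ) : Matrix ι ι F)) * f x *
        ((P : Matrix ι ι F) * ((P⁻¹ : (Matrix ι ι F)ˣ) : Matrix ι ι F)) := by
        rw [hP', one_mul, mul_one]
    _ = (P : Matrix ι ι F) * (((P⁻¹ : (Matrix ι ι F)ˣ) : Matrix ι ι F) * f x *
        (P : Matrix ι ι F)) * ((P⁻¹ : (Matrix ι ι F)ˣ) : Matrix ι ι F) := by
        simp only [mul_assoc]
    _ = _ := by
        conv_lhs => rw [h3]
        rfl

theorem psi_add (j : ι) (x y : D) : psi f P j (x + y) = psi f P j x + psi f P j y := by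
  simp only [psi, map_add, mul_add, add_mul, Matrix.add_apply]

theorem psi_one (j : ι) : psi f P j 1 = 1 := by
  simp only [psi, map_one, mul_one]
  rw [Units.inv_mul, Matrix.one_apply_eq]

theorem psi_zero (j : ι) : psi f P j 0 = 0 := by
  simp only [psi, map_zero, mul_zero, zero_mul, Matrix.zero_apply]

theorem psi_mul (ha : Function.Injective a)
    (hσ : f σ = (P : Matrix ι ι F) * diagonal a * ((P⁻¹ : (Matrix ι ι F)ˣ) : Matrix ι ι F))
    {x y : D} (hx : x * σ = σ * x) (hy : y * σ = σ * y) (j : ι) :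
    psi f P j (x * y) = psi f P j x * psi f P j y := by
  have hP : ((P⁻¹ : (Matrix ι ι F)ˣ) : Matrix ι ι F) * (P : Matrix ι ι F) = 1 := P.inv_mul
  have h : ((P⁻¹ : (Matrix ι ι F)ˣ) : Matrix ι ι F) * f (x * y) * (P : Matrix ι ι F) =
      diagonal (fun j => psi f P j x * psi f P j y) := by
    rw [map_mul, psi_diag ha hσ hx, psi_diag ha hσ hy, ← diagonal_mul_diagonal]
    calc _ = (((P⁻¹ : (Matrix ι ι F)ˣ) : Matrix ι ι F) * (P : Matrix ι ι F)) *
          diagonal (fun j => psi f P j x) *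
          (((P⁻¹ : (Matrix ι ι F)ˣ) : Matrix ι ι F) * (P : Matrix ι ι F)) *
          diagonal (fun j => psi f P j y) *
          (((P⁻¹ : (Matrix ι ι F)ˣ) : Matrix ι ι F) * (P : Matrix ι ι F)) := by
          simp only [mul_assoc]
      _ = _ := by rw [hP, one_mul, mul_one, mul_one]
  rw [psi, h, diagonal_apply_eq]

theorem psi_gen
    (hσ : f σ = (P : Matrix ι ι F) * diagonal a * ((P⁻¹ : (Matrix ι ι F)ˣ) : Matrix ι ι F))
    (j : ι) : psi f P j σ = a j := by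
  have hP : ((P⁻¹ : (Matrix ι ι F)ˣ) : Matrix ι ι F) * (P : Matrix ι ι F) = 1 := P.inv_mul
  rw [psi, hσ]
  have : ((P⁻¹ : (Matrix ι ι F)ˣ) : Matrix ι ι F) * ((P : Matrix ι ι F) * diagonal a *
      ((P⁻¹ : (Matrix ι ι F)ˣ) : Matrix ι ι F)) * (P : Matrix ι ι F) = diagonal a := by
    calc _ = (((P⁻¹ : (Matrix ι ι F)ˣ) : Matrix ι ι F) * (P : Matrix ι ι F)) * diagonal a *
          (((P⁻¹ : (Matrix ι ι F)ˣ) : Matrix ι ι F) * (P : Matrix ι ι F)) := by
          simp only [mul_assoc]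
      _ = _ := by rw [hP, one_mul, mul_one]
  rw [this, diagonal_apply_eq]

theorem psi_ne_zero (ha : Function.Injective a)
    (hσ : f σ = (P : Matrix ι ι F) * diagonal a * ((P⁻¹ : (Matrix ι ι F)ˣ) : Matrix ι ι F))
    {x : D} (hx : x * σ = σ * x) (h0 : x ≠ 0) (j : ι) : psi f P j x ≠ 0 := by
  intro h
  have hx' : x⁻¹ * σ = σ * x⁻¹ := by
    have h1 : x⁻¹ * (x * σ) * x⁻¹ = x⁻¹ * (σ * x) * x⁻¹ := by rw [hx]
    rw [← mul_assoc, inv_mul_cancel₀ h0, one_mul, mul_assoc, mul_assoc, mul_inv_cancel₀ h0,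
      mul_one] at h1
    exact h1.symm
  have h1 := psi_mul ha hσ hx hx' j
  rw [mul_inv_cancel₀ h0, psi_one, h, zero_mul] at h1
  exact one_ne_zero h1

theorem mem_SR_of_psi (ha : Function.Injective a)
    (hσ : f σ = (P : Matrix ι ι F) * diagonal a * ((P⁻¹ : (Matrix ι ι F)ˣ) : Matrix ι ι F))
    {x : D} (hx : x * σ = σ * x) (h : Function.Injective fun j => psi f P j x) :
    f x ∈ SR ι F := ⟨P, _, h, psi_diag ha hσ hx⟩

end psi

section poly

/-- Two invertible fractional linear maps in independent variables do not coincide. -/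
theorem exists_ne_of_det {F : Type*} [Field F] {A B C D A' B' C' D' : F}
    (h : A * D - B * C ≠ 0) (h' : A' * D' - B' * C' ≠ 0) :
    ∃ t t' : F, (A * t + B) * (C' * t' + D') - (A' * t' + B') * (C * t + D) ≠ 0 := by
  by_contra hcon
  push Not at hcon
  have h1 := hcon 0 0
  have h2 := hcon 1 0
  have h3 := hcon 0 1
  have h4 := hcon 1 1
  have e1 : (A * D - B * C) * D' = 0 := by linear_combination D * h2 - (C + D) * h1
  have e2 : (A * D - B * C) * C' = 0 := by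
    linear_combination D * (h4 - h2) - (C + D) * (h3 - h1)
  rcases mul_eq_zero.mp e1 with h5 | h5
  · exact h h5
  rcases mul_eq_zero.mp e2 with h6 | h6
  · exact h h6
  apply h'
  rw [h5, h6, mul_zero, mul_zero, sub_zero]

open MvPolynomial in
/-- The choice of the two coefficients. -/
theorem exists_coeffs {k F ι J : Type*} [Field k] [Infinite k] [Field F] [Finite ι] [Finite J]
    (φ : k →+* F) {a : ι → F} (ha : Function.Injective a) (A B C D : J → ι → F)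
    (hdet : ∀ i j, A i j * D i j - B i j * C i j ≠ 0) :
    ∃ c₀ c₁ : k, ∀ i j j', j ≠ j' →
      (A i j * (φ c₀ + φ c₁ * a j) + B i j) * (C i j' * (φ c₀ + φ c₁ * a j') + D i j') ≠
      (A i j' * (φ c₀ + φ c₁ * a j') + B i j') * (C i j * (φ c₀ + φ c₁ * a j) + D i j) := by
  classical
  have := Fintype.ofFinite ι
  have := Fintype.ofFinite J
  let S : ι → MvPolynomial (Fin 2) F := fun j => X 0 + X 1 * MvPolynomial.C (a j)
  let Q : J × ι × ι → MvPolynomial (Fin 2) F := fun p =>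
    if p.2.1 = p.2.2 then 1 else
      (MvPolynomial.C (A p.1 p.2.1) * S p.2.1 + MvPolynomial.C (B p.1 p.2.1)) *
      (MvPolynomial.C (C p.1 p.2.2) * S p.2.2 + MvPolynomial.C (D p.1 p.2.2)) -
      (MvPolynomial.C (A p.1 p.2.2) * S p.2.2 + MvPolynomial.C (B p.1 p.2.2)) *
      (MvPolynomial.C (C p.1 p.2.1) * S p.2.1 + MvPolynomial.C (D p.1 p.2.1))
  have hQ : ∀ p, Q p ≠ 0 := by
    rintro ⟨i, j, j'⟩
    by_cases hj : j = j'
    · simp only [Q, if_pos hj]
      exact one_ne_zero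
    · simp only [Q, if_neg hj]
      obtain ⟨t, t', ht⟩ := exists_ne_of_det (hdet i j) (hdet i j')
      intro h0
      apply ht
      have haj : a j - a j' ≠ 0 := sub_ne_zero.mpr fun h => hj (ha h)
      let c₁ : F := (t - t') / (a j - a j')
      let c₀ : F := t - c₁ * a j
      have h1 : c₀ + c₁ * a j = t := by simp only [c₀]; ring
      have h2 : c₀ + c₁ * a j' = t' := by
        simp only [c₀, c₁]
        field_simp
        ring
      have h3 := congrArg (eval ![c₀, c₁]) h0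
      simp only [S, map_sub, map_mul, map_add, eval_C, eval_X, map_zero, Matrix.cons_val_zero,
        Matrix.cons_val_one, h1, h2] at h3
      exact h3
  have hprod : (∏ p, Q p) ≠ 0 := Finset.prod_ne_zero_iff.mpr fun p _ => hQ p
  have hex : ∃ x ∈ Set.pi Set.univ (fun _ : Fin 2 => Set.range φ), eval x (∏ p, Q p) ≠ 0 := by
    by_contra hcon
    push Not at hcon
    exact hprod (funext_set (fun _ : Fin 2 => Set.range φ)
      (fun _ => Set.infinite_range_of_injective φ.injective) fun x hx => by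
        rw [hcon x hx, map_zero])
  obtain ⟨x, hx, hne⟩ := hex
  obtain ⟨c₀, hc₀⟩ := hx 0 trivial
  obtain ⟨c₁, hc₁⟩ := hx 1 trivial
  refine ⟨c₀, c₁, fun i j j' hj => ?_⟩
  rw [map_prod, Finset.prod_ne_zero_iff] at hne
  have h1 := hne (i, j, j') (Finset.mem_univ _)
  simp only [Q, if_neg hj, S, map_sub, map_mul, map_add, eval_C, eval_X, ← hc₀, ← hc₁] at h1
  exact sub_ne_zero.mp h1

end poly

section mob

variable {D : Type*} [DivisionRing D]

/-- `h` acts on the elements of `U` in `E` as a fractional linear map with coefficients in `E`. -/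
def IsMob (U : Subgroup Dˣ) (E : Subring D) (h : U → U) : Prop :=
  ∃ a b c e : D, a ∈ E ∧ b ∈ E ∧ c ∈ E ∧ e ∈ E ∧ a * e - b * c ≠ 0 ∧
    ∀ y : U, ((y : Dˣ) : D) ∈ E → a + b * ((y : Dˣ) : D) ≠ 0 ∧
      ((h y : Dˣ) : D) = (c + e * ((y : Dˣ) : D)) * (a + b * ((y : Dˣ) : D))⁻¹

variable {U : Subgroup Dˣ} {E : Subring D}

theorem IsMob.id : IsMob U E id :=
  ⟨1, 0, 0, 1, one_mem _, zero_mem _, zero_mem _, one_mem _, by simp, fun y _ => by simp⟩

theorem IsMob.mem (hinv : ∀ x ∈ E, x⁻¹ ∈ E) {h : U → U} (hh : IsMob U E h) {y : U}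
    (hy : ((y : Dˣ) : D) ∈ E) : ((h y : Dˣ) : D) ∈ E := by
  obtain ⟨a, b, c, e, ha, hb, hc, he, -, hf⟩ := hh
  rw [(hf y hy).2]
  exact mul_mem (add_mem hc (mul_mem he hy)) (hinv _ (add_mem ha (mul_mem hb hy)))

theorem IsMob.comp (hinv : ∀ x ∈ E, x⁻¹ ∈ E) (hcomm : ∀ x ∈ E, ∀ y ∈ E, x * y = y * x)
    {h₂ h₁ : U → U} (hh₂ : IsMob U E h₂) (hh₁ : IsMob U E h₁) : IsMob U E (h₂ ∘ h₁) := by
  have hh₁' := hh₁
  obtain ⟨a₂, b₂, c₂, e₂, ha₂, hb₂, hc₂, he₂, hd₂, hf₂⟩ := hh₂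
  obtain ⟨a₁, b₁, c₁, e₁, ha₁, hb₁, hc₁, he₁, hd₁, hf₁⟩ := hh₁
  refine ⟨a₂ * a₁ + b₂ * c₁, a₂ * b₁ + b₂ * e₁, c₂ * a₁ + e₂ * c₁, c₂ * b₁ + e₂ * e₁,
    add_mem (mul_mem ha₂ ha₁) (mul_mem hb₂ hc₁), add_mem (mul_mem ha₂ hb₁) (mul_mem hb₂ he₁),
    add_mem (mul_mem hc₂ ha₁) (mul_mem he₂ hc₁), add_mem (mul_mem hc₂ hb₁) (mul_mem he₂ he₁),
    ?_, ?_⟩
  · have key : (a₂ * a₁ + b₂ * c₁) * (c₂ * b₁ + e₂ * e₁) -
        (a₂ * b₁ + b₂ * e₁) * (c₂ * a₁ + e₂ * c₁) =
        (a₂ * e₂ - b₂ * c₂) * (a₁ * e₁ - b₁ * c₁) := by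
      let E' : CommRing E := { (inferInstance : Ring E) with
        mul_comm := fun x y => Subtype.ext (hcomm x x.2 y y.2) }
      have h1 : ∀ A₁ B₁ C₁ G₁ A₂ B₂ C₂ G₂ : E, (A₂ * A₁ + B₂ * C₁) * (C₂ * B₁ + G₂ * G₁) -
        (A₂ * B₁ + B₂ * G₁) * (C₂ * A₁ + G₂ * C₁) =
        (A₂ * G₂ - B₂ * C₂) * (A₁ * G₁ - B₁ * C₁) := by
        intro A₁ B₁ C₁ G₁ A₂ B₂ C₂ G₂
        ring
      have h2 := congrArg (Subtype.val) (h1 ⟨a₁, ha₁⟩ ⟨b₁, hb₁⟩ ⟨c₁, hc₁⟩ ⟨e₁, he₁⟩ ⟨a₂, ha₂⟩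
        ⟨b₂, hb₂⟩ ⟨c₂, hc₂⟩ ⟨e₂, he₂⟩)
      exact h2
    rw [key]
    exact mul_ne_zero hd₂ hd₁
  · intro y hy
    obtain ⟨hn₁, hv₁⟩ := hf₁ y hy
    obtain ⟨hn₂, hv₂⟩ := hf₂ (h₁ y) (hh₁'.mem hinv hy)
    set Y : D := ((y : Dˣ) : D) with hY
    set N : D := a₁ + b₁ * Y with hN
    have hmem : c₁ + e₁ * Y ∈ E := add_mem hc₁ (mul_mem he₁ hy)
    have hNm : N ∈ E := add_mem ha₁ (mul_mem hb₁ hy)
    have t : ∀ u v : D, (u + v * ((c₁ + e₁ * Y) * N⁻¹)) * N = u * N + v * (c₁ + e₁ * Y) := by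
      intro u v
      rw [add_mul, mul_assoc v, mul_assoc (c₁ + e₁ * Y), inv_mul_cancel₀ hn₁, mul_one]
    have e1 : a₂ * a₁ + b₂ * c₁ + (a₂ * b₁ + b₂ * e₁) * Y =
        (a₂ + b₂ * ((h₁ y : Dˣ) : D)) * N := by
      rw [hv₁, t, hN]
      noncomm_ring
    have e2 : c₂ * a₁ + e₂ * c₁ + (c₂ * b₁ + e₂ * e₁) * Y =
        (c₂ + e₂ * ((h₁ y : Dˣ) : D)) * N := by
      rw [hv₁, t, hN]
      noncomm_ring
    refine ⟨?_, ?_⟩
    · rw [e1]
      exact mul_ne_zero hn₂ hn₁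
    · rw [e1, e2, _root_.mul_inv_rev, ← mul_assoc, mul_assoc (c₂ + _), mul_inv_cancel₀ hn₁,
        mul_one]
      exact hv₂

/-- If `h` is given by a formula, the denominators do not vanish. -/
theorem IsMob.of_formula {h : U → U} {a b c e : D} (ha : a ∈ E) (hb : b ∈ E) (hc : c ∈ E)
    (he : e ∈ E) (hdet : a * e - b * c ≠ 0)
    (hf : ∀ y : U, ((y : Dˣ) : D) ∈ E →
      ((h y : Dˣ) : D) = (c + e * ((y : Dˣ) : D)) * (a + b * ((y : Dˣ) : D))⁻¹) :
    IsMob U E h := by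
  refine ⟨a, b, c, e, ha, hb, hc, he, hdet, fun y hy => ⟨fun h0 => ?_, hf y hy⟩⟩
  have h1 := hf y hy
  rw [h0, _root_.inv_zero, mul_zero] at h1
  exact (h y : Dˣ).ne_zero h1

/-- Left multiplication. -/
theorem isMob_L {h : U → U} {u : D} (hu : u ∈ E) (hu0 : u ≠ 0)
    (hf : ∀ y : U, ((h y : Dˣ) : D) = u * ((y : Dˣ) : D)) : IsMob U E h :=
  IsMob.of_formula (one_mem _) (zero_mem _) (zero_mem _) hu (by simpa using hu0) fun y _ => by
    rw [hf y]
    simp

/-- Translation by `v` in the Cayley chart. -/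
theorem isMob_T (hcomm : ∀ x ∈ E, ∀ y ∈ E, x * y = y * x) {h : U → U} {δ v : D} (hδ : δ ∈ E)
    (hv : v ∈ E) (h2 : (2 : D) ≠ 0) (hδ0 : δ ≠ 0)
    (hf : ∀ y : U, ((h y : Dˣ) : D) = (-v + (2 * δ + v) * ((y : Dˣ) : D)) *
      (2 * δ - v + v * ((y : Dˣ) : D))⁻¹) : IsMob U E h := by
  have h2E : (2 : D) ∈ E := by
    have := add_mem (one_mem E) (one_mem E)
    rwa [one_add_one_eq_two] at this
  refine IsMob.of_formula (sub_mem (mul_mem h2E hδ) hv) hv (neg_mem hv)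
    (add_mem (mul_mem h2E hδ) hv) ?_ fun y _ => hf y
  have h1 : (2 * δ - v) * (2 * δ + v) - v * -v = 4 * (δ * δ) := by
    have h3 := hcomm _ hδ _ hv
    have h4 : (2 * δ - v) * (2 * δ + v) - v * -v =
        4 * (δ * δ) + 2 * (δ * v - v * δ) := by noncomm_ring
    rw [h4, h3, sub_self, mul_zero, add_zero]
  rw [h1]
  have h4 : (4 : D) = 2 * 2 := by norm_num
  rw [h4]
  exact mul_ne_zero (mul_ne_zero h2 h2) (mul_ne_zero hδ0 hδ0)

/-- Congruence in the Cayley chart. -/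
theorem isMob_W (hcomm : ∀ x ∈ E, ∀ y ∈ E, x * y = y * x) {h : U → U} {e e' : D} (he : e ∈ E)
    (he' : e' ∈ E) (h2 : (2 : D) ≠ 0) (he0 : e ≠ 0) (he0' : e' ≠ 0)
    (hf : ∀ y : U, ((h y : Dˣ) : D) = (e - e' + (e + e') * ((y : Dˣ) : D)) *
      (e + e' + (e - e') * ((y : Dˣ) : D))⁻¹) : IsMob U E h := by
  refine IsMob.of_formula (add_mem he he') (sub_mem he he') (sub_mem he he') (add_mem he he')
    ?_ fun y _ => hf y
  have h1 : (e + e') * (e + e') - (e - e') * (e - e') = 4 * (e * e') := by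
    have h3 := hcomm _ he _ he'
    have h4 : (e + e') * (e + e') - (e - e') * (e - e') = 2 * (e * e') + 2 * (e' * e) := by
      noncomm_ring
    rw [h4, ← h3, ← add_mul]
    norm_num
  rw [h1]
  have h4 : (4 : D) = 2 * 2 := by norm_num
  rw [h4]
  exact mul_ne_zero (mul_ne_zero h2 h2) (mul_ne_zero he0 he0')

/-- The permutations of `U` which are fractional linear with coefficients in `E`, together with
their inverses. -/
def mobGrp (U : Subgroup Dˣ) (E : Subring D) (hinv : ∀ x ∈ E, x⁻¹ ∈ E)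
    (hcomm : ∀ x ∈ E, ∀ y ∈ E, x * y = y * x) : Subgroup (Equiv.Perm U) where
  carrier := {h | IsMob U E h ∧ IsMob U E h.symm}
  mul_mem' ha hb := ⟨ha.1.comp hinv hcomm hb.1, hb.2.comp hinv hcomm ha.2⟩
  one_mem' := ⟨IsMob.id, IsMob.id⟩
  inv_mem' ha := ⟨ha.2, ha.1⟩

theorem mem_mobGrp {hinv : ∀ x ∈ E, x⁻¹ ∈ E} {hcomm : ∀ x ∈ E, ∀ y ∈ E, x * y = y * x}
    {h : Equiv.Perm U} : h ∈ mobGrp U E hinv hcomm ↔ IsMob U E h ∧ IsMob U E h.symm := Iff.rfl

end mob

section main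

variable {k F D ι J : Type*} [Field k] [Infinite k] [Field F] [DivisionRing D] [Algebra k D]
  [StarRing D] [Fintype ι] [DecidableEq ι]

/-- **The base point.** -/
theorem exists_base {U : Subgroup Dˣ} (hU : ∀ g : Dˣ, g ∈ U ↔ (g : D) * star (g : D) = 1)
    {E : Subring D} (hinv : ∀ x ∈ E, x⁻¹ ∈ E) (hcomm : ∀ x ∈ E, ∀ y ∈ E, x * y = y * x)
    (φ : k →+* F) (f : D →+* Matrix ι ι F)
    (hφ : ∀ c, f (algebraMap k D c) = Matrix.scalar ι (φ c))
    (hst : ∀ (c : k) (x : D), star (c • x) = c • star x)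
    {w : D} (hwE : w ∈ E) (hwE' : star w ∈ E) (hw : star w ≠ w)
    {σ : D} (hσE : σ ∈ E) (hσs : star σ = σ) (hsr : f σ ∈ SR ι F)
    (hkE : ∀ c : k, algebraMap k D c ∈ E) [Finite J] (h : J → U → U)
    (hh : ∀ i, IsMob U E (h i)) :
    ∃ (c₀ c₁ : k) (x : U),
      ((x : Dˣ) : D) = (algebraMap k D c₀ + algebraMap k D c₁ * σ + w) *
        (algebraMap k D c₀ + algebraMap k D c₁ * σ + star w)⁻¹ ∧
      ((x : Dˣ) : D) ∈ E ∧ ∀ i, f ((h i x : Dˣ) : D) ∈ SR ι F := by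
  classical
  obtain ⟨P, a, ha, hσ⟩ := hsr
  choose A₀ B₀ C₀ E₀ hA hB hC hE hdet hf using hh
  have hcσ : ∀ x ∈ E, x * σ = σ * x := fun x hx => hcomm x hx σ hσE
  have pm : ∀ {x y : D}, x ∈ E → y ∈ E → ∀ j, psi f P j (x * y) = psi f P j x * psi f P j y :=
    fun hx hy j => psi_mul ha hσ (hcσ _ hx) (hcσ _ hy) j
  have pn : ∀ {x : D}, x ∈ E → x ≠ 0 → ∀ j, psi f P j x ≠ 0 :=
    fun hx h0 j => psi_ne_zero ha hσ (hcσ _ hx) h0 j
  have pk : ∀ (c : k) (j : ι), psi f P j (algebraMap k D c) = φ c := by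
    intro c j
    rw [psi, hφ, Matrix.scalar_apply]
    have h1 : (diagonal fun _ : ι => φ c) = φ c • (1 : Matrix ι ι F) := by
      rw [Matrix.smul_one_eq_diagonal]
    rw [h1, Matrix.mul_smul, mul_one, Matrix.smul_mul, Units.inv_mul, Matrix.smul_apply,
      Matrix.one_apply_eq, smul_eq_mul, mul_one]
  -- the coefficients as functions of `s`
  let A : J → ι → F := fun i j => psi f P j (C₀ i + E₀ i)
  let B : J → ι → F := fun i j => psi f P j (C₀ i * star w + E₀ i * w)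
  let C : J → ι → F := fun i j => psi f P j (A₀ i + B₀ i)
  let G : J → ι → F := fun i j => psi f P j (A₀ i * star w + B₀ i * w)
  have hAG : ∀ i j, A i j * G i j - B i j * C i j ≠ 0 := by
    intro i j
    have m1 : C₀ i + E₀ i ∈ E := add_mem (hC i) (hE i)
    have m2 : C₀ i * star w + E₀ i * w ∈ E :=
      add_mem (mul_mem (hC i) hwE') (mul_mem (hE i) hwE)
    have m3 : A₀ i + B₀ i ∈ E := add_mem (hA i) (hB i)
    have m4 : A₀ i * star w + B₀ i * w ∈ E :=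
      add_mem (mul_mem (hA i) hwE') (mul_mem (hB i) hwE)
    have key : (C₀ i + E₀ i) * (A₀ i * star w + B₀ i * w) -
        (C₀ i * star w + E₀ i * w) * (A₀ i + B₀ i) =
        (A₀ i * E₀ i - B₀ i * C₀ i) * (star w - w) := by
      let E' : CommRing E := { (inferInstance : Ring E) with
        mul_comm := fun x y => Subtype.ext (hcomm x x.2 y y.2) }
      have h1 : ∀ a b c e v v' : E, (c + e) * (a * v' + b * v) - (c * v' + e * v) * (a + b) =
          (a * e - b * c) * (v' - v) := by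
        intro a b c e v v'
        ring
      exact congrArg Subtype.val (h1 ⟨A₀ i, hA i⟩ ⟨B₀ i, hB i⟩ ⟨C₀ i, hC i⟩ ⟨E₀ i, hE i⟩
        ⟨w, hwE⟩ ⟨star w, hwE'⟩)
    have h2 : A i j * G i j - B i j * C i j =
        psi f P j ((A₀ i * E₀ i - B₀ i * C₀ i) * (star w - w)) := by
      simp only [A, B, C, G]
      rw [← pm m1 m4, ← pm m2 m3, ← key]
      have h3 := psi_add (f := f) (P := P) j ((C₀ i + E₀ i) * (A₀ i * star w + B₀ i * w) -
        (C₀ i * star w + E₀ i * w) * (A₀ i + B₀ i)) ((C₀ i * star w + E₀ i * w) * (A₀ i + B₀ i))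
      rw [sub_add_cancel] at h3
      rw [h3, add_sub_cancel_right]
    rw [h2]
    exact pn (mul_mem (sub_mem (mul_mem (hA i) (hE i)) (mul_mem (hB i) (hC i)))
      (sub_mem hwE' hwE)) (mul_ne_zero (hdet i) (sub_ne_zero.mpr hw)) j
  obtain ⟨c₀, c₁, hc⟩ := exists_coeffs φ ha A B C G hAG
  set s : D := algebraMap k D c₀ + algebraMap k D c₁ * σ with hs
  have hsE : s ∈ E := add_mem (hkE _) (mul_mem (hkE _) hσE)
  have hss : star s = s := by
    have h1 : s = c₀ • (1 : D) + c₁ • σ := by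
      rw [hs, Algebra.algebraMap_eq_smul_one, Algebra.smul_def c₁]
    rw [h1, star_add, hst, hst, star_one, hσs]
  have hn1 : s + w ≠ 0 := by
    intro h0
    have h1 : w = -s := by rw [eq_neg_iff_add_eq_zero, add_comm]; exact h0
    apply hw
    rw [h1, star_neg, hss]
  have hn2 : s + star w ≠ 0 := by
    intro h0
    have h1 : star w = -s := by rw [eq_neg_iff_add_eq_zero, add_comm]; exact h0
    apply hw
    have h2 := congrArg star h1
    rw [star_star, star_neg, hss] at h2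
    rw [h1, h2]
  set X : D := (s + w) * (s + star w)⁻¹ with hX
  have hXE : X ∈ E := mul_mem (add_mem hsE hwE) (hinv _ (add_mem hsE hwE'))
  have hX0 : X ≠ 0 := mul_ne_zero hn1 (inv_ne_zero hn2)
  have hcw : (s + w) * (s + star w) = (s + star w) * (s + w) :=
    hcomm _ (add_mem hsE hwE) _ (add_mem hsE hwE')
  have hXs : X * star X = 1 := by
    rw [hX, star_mul, star_inv₀, star_add s, star_add s, star_star, hss]
    have h1 : (s + star w)⁻¹ * ((s + w)⁻¹ * (s + star w)) = (s + w)⁻¹ := by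
      have h2 : (s + star w)⁻¹ * (s + w)⁻¹ = (s + w)⁻¹ * (s + star w)⁻¹ := by
        rw [← _root_.mul_inv_rev, ← _root_.mul_inv_rev, hcw]
      rw [← mul_assoc, h2, mul_assoc, inv_mul_cancel₀ hn2, mul_one]
    rw [mul_assoc, h1, mul_inv_cancel₀ hn1]
  let x : U := ⟨Units.mk0 X hX0, (hU _).mpr hXs⟩
  have hx : ((x : Dˣ) : D) = X := rfl
  refine ⟨c₀, c₁, x, hx, by rw [hx]; exact hXE, fun i => ?_⟩
  obtain ⟨hn, hv⟩ := hf i x (by rw [hx]; exact hXE)
  rw [hx] at hn hv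
  -- `h i x` as a fractional linear function of `s`
  have hNum : (C₀ i + E₀ i * X) * (s + star w) = (C₀ i + E₀ i) * s + (C₀ i * star w + E₀ i * w) := by
    rw [add_mul, mul_assoc (E₀ i), hX, mul_assoc (s + w), inv_mul_cancel₀ hn2, mul_one]
    noncomm_ring
  have hDen : (A₀ i + B₀ i * X) * (s + star w) = (A₀ i + B₀ i) * s + (A₀ i * star w + B₀ i * w) := by
    rw [add_mul, mul_assoc (B₀ i), hX, mul_assoc (s + w), inv_mul_cancel₀ hn2, mul_one]
    noncomm_ring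
  set N₁ : D := (C₀ i + E₀ i) * s + (C₀ i * star w + E₀ i * w) with hN1
  set N₂ : D := (A₀ i + B₀ i) * s + (A₀ i * star w + B₀ i * w) with hN2
  have hN2E : N₂ ∈ E := add_mem (mul_mem (add_mem (hA i) (hB i)) hsE)
    (add_mem (mul_mem (hA i) hwE') (mul_mem (hB i) hwE))
  have hN2n : N₂ ≠ 0 := by
    rw [← hDen]
    exact mul_ne_zero hn hn2
  have hval : ((h i x : Dˣ) : D) * N₂ = N₁ := by
    rw [hv, ← hDen, ← hNum, mul_assoc, ← mul_assoc (A₀ i + B₀ i * X)⁻¹, inv_mul_cancel₀ hn,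
      one_mul]
  have hhE : ((h i x : Dˣ) : D) ∈ E := by
    rw [hv]
    exact mul_mem (add_mem (hC i) (mul_mem (hE i) hXE))
      (hinv _ (add_mem (hA i) (mul_mem (hB i) hXE)))
  have hps : ∀ j, psi f P j s = φ c₀ + φ c₁ * a j := by
    intro j
    rw [hs, psi_add, pk, pm (hkE _) hσE, pk, psi_gen hσ]
  have hp1 : ∀ j, psi f P j N₁ = A i j * (φ c₀ + φ c₁ * a j) + B i j := by
    intro j
    rw [hN1, psi_add, pm (add_mem (hC i) (hE i)) hsE, hps]
  have hp2 : ∀ j, psi f P j N₂ = C i j * (φ c₀ + φ c₁ * a j) + G i j := by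
    intro j
    rw [hN2, psi_add, pm (add_mem (hA i) (hB i)) hsE, hps]
  refine mem_SR_of_psi ha hσ (hcσ _ hhE) fun j j' hjj => ?_
  by_contra hne
  apply hc i j j' hne
  simp only at hjj
  have e1 : ∀ j, psi f P j ((h i x : Dˣ) : D) * psi f P j N₂ = psi f P j N₁ := by
    intro j
    rw [← pm hhE hN2E, hval]
  rw [← hp1, ← hp1, ← hp2, ← hp2, ← e1 j, ← e1 j', hjj]
  ring

end main

end Vale.Agent.P011.H210
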