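import Vale.Agent.P011.H210.Base
import Vale.Agent.P011.H674.OneStep

/-!
# The base point for the permutations `T v`, `W e`, `L u` of the Cayley chart
-/

open Matrix

namespace Vale.Agent.P011.H210

open Vale.Agent.P011.H674.Pair

universe u

variable {D : Type u} [DivisionRing D] [StarRing D] {U : Subgroup Dˣ} {δ : D} (h : Chart U δ)
  {E : Subring D} (hE : CStar δ E)

/-- The fractional linear permutations with coefficients in `E`. -/
abbrev MG (U : Subgroup Dˣ) {E : Subring D} (hE : CStar δ E) : Subgroup (Equiv.Perm U) :=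
  mobGrp U E hE.inv_mem hE.comm

include h hE

theorem isMob_chartT {v : D} (hv : v ∈ E) (hv' : star v = v) : IsMob U E (h.T v) :=
  isMob_T hE.comm hE.del_mem hv h.two h.ne fun y => by
    rw [h.coe_T hv']
    rfl

theorem T_mem {v : D} (hv : v ∈ E) (hv' : star v = v) : h.T v ∈ MG U hE := by
  refine ⟨isMob_chartT h hE hv hv', ?_⟩
  have h1 : (h.T v).symm = h.T (-v) := (h.T_neg hv').symm
  rw [h1]
  exact isMob_chartT h hE (neg_mem hv) (by rw [star_neg, hv'])

theorem isMob_chartW {e : D} (he : e ∈ E) (he' : e ≠ 0) : IsMob U E (h.W e) :=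
  isMob_W hE.comm he (hE.inv_mem _ (hE.star_mem _ he)) h.two he'
    (inv_ne_zero (star_ne_zero.mpr he')) fun y => by
    rw [h.coe_W he']
    rfl

theorem W_mem {e : D} (he : e ∈ E) (he' : e ≠ 0) : h.W e ∈ MG U hE := by
  refine ⟨isMob_chartW h hE he he', ?_⟩
  have h1 : (h.W e).symm = h.W e⁻¹ := (h.W_inv he').symm
  rw [h1]
  exact isMob_chartW h hE (hE.inv_mem _ he) (inv_ne_zero he')

theorem L_mem {u : U} (hu : ((u : Dˣ) : D) ∈ E) : h.L u ∈ MG U hE := by
  have key : ∀ u : U, ((u : Dˣ) : D) ∈ E → IsMob U E (h.L u) := fun u hu =>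
    isMob_L hu (u : Dˣ).ne_zero fun y => by
      rw [h.L_apply, Subgroup.coe_mul, Units.val_mul]
  refine ⟨key u hu, ?_⟩
  have h1 : (h.L u).symm = h.L u⁻¹ := (h.L_inv u).symm
  rw [h1]
  refine key _ ?_
  rw [Subgroup.coe_inv, Units.val_inv_eq_inv_val]
  exact hE.inv_mem _ hu

theorem PE_le : h.PE hE ≤ MG U hE := by
  rintro _ ⟨v, hv, hv', e, he, he', rfl⟩
  exact mul_mem (T_mem h hE hv hv') (W_mem h hE he he')

/-- **The base point, in the letters of the Cayley chart.** -/
theorem exists_base_pair {k F ι J : Type*} [Field k] [Infinite k] [Field F] [Algebra k D]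
    [Fintype ι] [DecidableEq ι] (φ : k →+* F) (f : D →+* Matrix ι ι F)
    (hφ : ∀ c, f (algebraMap k D c) = Matrix.scalar ι (φ c))
    (hst : ∀ (c : k) (x : D), star (c • x) = c • star x)
    {σ : D} (hσE : σ ∈ E) (hσs : star σ = σ) (hsr : f σ ∈ SR ι F)
    (hkE : ∀ c : k, algebraMap k D c ∈ E) [Finite J] (g : J → Equiv.Perm U)
    (hg : ∀ i, g i ∈ MG U hE) :
    ∃ (c₀ c₁ : k) (s : D) (hs : star s = s),
      s = algebraMap k D c₀ + algebraMap k D c₁ * σ ∧ s ∈ E ∧
      ∀ i, f ((g i (h.cayU hs) : Dˣ) : D) ∈ SR ι F := by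
  have hδ : star δ ≠ δ := by
    rw [h.star_del]
    intro h0
    have h1 : 2 * δ = 0 := by
      rw [two_mul]
      nth_rw 1 [← h0]
      exact neg_add_cancel δ
    exact mul_ne_zero h.two h.ne h1
  obtain ⟨c₀, c₁, x, hx, -, hsr'⟩ := exists_base (U := U) h.mem_iff hE.inv_mem hE.comm φ f hφ hst
    hE.del_mem (hE.star_mem _ hE.del_mem) hδ hσE hσs hsr hkE (fun i => (g i : U → U))
    (fun i => (hg i).1)
  have hss : star (algebraMap k D c₀ + algebraMap k D c₁ * σ) =
      algebraMap k D c₀ + algebraMap k D c₁ * σ := by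
    have h1 : algebraMap k D c₀ + algebraMap k D c₁ * σ = c₀ • (1 : D) + c₁ • σ := by
      rw [Algebra.algebraMap_eq_smul_one, Algebra.smul_def c₁]
    rw [h1, star_add, hst, hst, star_one, hσs]
  refine ⟨c₀, c₁, _, hss, rfl, add_mem (hkE _) (mul_mem (hkE _) hσE), fun i => ?_⟩
  have hxe : x = h.cayU hss := by
    apply Subtype.ext
    apply Units.ext
    rw [hx, h.coe_cayU, h.star_del, ← sub_eq_add_neg]
    rfl
  rw [← hxe]
  exact hsr' i

end Vale.Agent.P011.H210
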