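import Mathlib

/-!
# Split regular matrices

`SR ι F` is the set of the matrices over a field `F` which are conjugate to a diagonal matrix with
pairwise different entries. Over a complete nontrivially normed field it is open.
-/

open Matrix Topology Filter

set_option linter.unusedSectionVars false

namespace Vale.Agent.P011.H210

section abs

/-- Conjugates of the elements close to `D` in a complete normed algebra. -/
theorem eventually_conj {𝕜 A : Type*} [NontriviallyNormedField 𝕜] [NormedRing A]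
    [NormedAlgebra 𝕜 A] [CompleteSpace A] (D : A) (T Y : A →L[𝕜] A)
    (hs : ∀ w, ∃ z, T z + Y z * D - D * Y z = w) {V : Set A} (hV : V ∈ 𝓝 (0 : A)) :
    ∀ᶠ g in 𝓝 D, ∃ z ∈ V, ∃ u : Aˣ, (u : A) = 1 + Y z ∧
      g = (u : A) * (D + T z) * ((u⁻¹ : Aˣ) : A) := by
  let Φ : A → A := fun z => (1 + Y z) * (D + T z) * Ring.inverse (1 + Y z)
  have h1 : HasStrictFDerivAt (fun z => 1 + Y z) Y (0 : A) :=
    Y.hasStrictFDerivAt.const_add 1
  have h2 : HasStrictFDerivAt (fun z => D + T z) T (0 : A) :=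
    T.hasStrictFDerivAt.const_add _
  have h3 : HasStrictFDerivAt (fun z => Ring.inverse (1 + Y z)) (-Y) (0 : A) := by
    have h4 := hasStrictFDerivAt_ringInverse (𝕜 := 𝕜) (R := A) 1
    have h5 : (1 : A) + Y 0 = ((1 : Aˣ) : A) := by
      rw [map_zero, add_zero, Units.val_one]
    rw [← h5] at h4
    have h6 := h4.comp (0 : A) h1
    convert! h6 using 1
    ext1 z
    simp
  have hΦ : HasStrictFDerivAt Φ _ (0 : A) := (h1.mul' h2).mul' h3
  have hsurj := hΦ.map_nhds_eq_of_surj (LinearMap.range_eq_top.mpr fun w => by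
    obtain ⟨z, hz⟩ := hs w
    refine ⟨z, ?_⟩
    rw [← hz]
    simp
    abel)
  have h0 : Φ 0 = D := by
    simp only [Φ, map_zero, add_zero, one_mul, Ring.inverse_one, mul_one]
  rw [h0] at hsurj
  rw [← hsurj, eventually_map]
  have hu : ∀ᶠ z in 𝓝 (0 : A), IsUnit (1 + Y z) := by
    have : Tendsto (fun z => 1 + Y z) (𝓝 (0 : A)) (𝓝 1) := by
      have := h1.continuousAt.tendsto
      simpa using this
    exact this.eventually (Units.nhds 1)
  filter_upwards [hu, hV] with z hz hzV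
  obtain ⟨u, hu⟩ := hz
  refine ⟨z, hzV, u, hu, ?_⟩
  simp only [Φ, ← hu, Ring.inverse_unit]

theorem eventually_conj' {𝕜 A : Type*} [NontriviallyNormedField 𝕜] [CompleteSpace 𝕜]
    [NormedRing A] [NormedAlgebra 𝕜 A] [FiniteDimensional 𝕜 A] (D : A) (T : A →ₗ[𝕜] A)
    (hs : ∀ w, ∃ z, T z + (z - T z) * D - D * (z - T z) = w) {V : Set A} (hV : V ∈ 𝓝 (0 : A)) :
    ∀ᶠ g in 𝓝 D, ∃ z ∈ V, ∃ u : Aˣ, (u : A) = 1 + (z - T z) ∧
      g = (u : A) * (D + T z) * ((u⁻¹ : Aˣ) : A) := by
  have i3 : CompleteSpace A := FiniteDimensional.complete 𝕜 A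
  exact eventually_conj (𝕜 := 𝕜) D (LinearMap.toContinuousLinearMap T)
    (ContinuousLinearMap.id 𝕜 _ - LinearMap.toContinuousLinearMap T) hs hV

end abs

section alg

/-- The split regular matrices. -/
def SR (ι F : Type*) [Fintype ι] [DecidableEq ι] [Field F] : Set (Matrix ι ι F) :=
  {g | ∃ (h : (Matrix ι ι F)ˣ) (a : ι → F), Function.Injective a ∧
    g = (h : Matrix ι ι F) * diagonal a * ((h⁻¹ : (Matrix ι ι F)ˣ) : Matrix ι ι F)}

variable {ι F : Type*} [Fintype ι] [DecidableEq ι] [Field F]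

theorem mem_SR {g : Matrix ι ι F} : g ∈ SR ι F ↔ ∃ (h : (Matrix ι ι F)ˣ) (a : ι → F),
    Function.Injective a ∧
    g = (h : Matrix ι ι F) * diagonal a * ((h⁻¹ : (Matrix ι ι F)ˣ) : Matrix ι ι F) := Iff.rfl

theorem diagonal_mem_SR {a : ι → F} (ha : Function.Injective a) : diagonal a ∈ SR ι F :=
  ⟨1, a, ha, by simp⟩

theorem conj_mem_SR {g : Matrix ι ι F} (hg : g ∈ SR ι F) (u : (Matrix ι ι F)ˣ) :
    (u : Matrix ι ι F) * g * ((u⁻¹ : (Matrix ι ι F)ˣ) : Matrix ι ι F) ∈ SR ι F := by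
  obtain ⟨h, a, ha, rfl⟩ := hg
  refine ⟨u * h, a, ha, ?_⟩
  have h1 : (u * h)⁻¹ = h⁻¹ * u⁻¹ := _root_.mul_inv_rev u h
  rw [h1, Units.val_mul, Units.val_mul]
  simp only [mul_assoc]

theorem conj_mem_SR_iff {g : Matrix ι ι F} (u : (Matrix ι ι F)ˣ) :
    (u : Matrix ι ι F) * g * ((u⁻¹ : (Matrix ι ι F)ˣ) : Matrix ι ι F) ∈ SR ι F ↔ g ∈ SR ι F := by
  refine ⟨fun h => ?_, fun h => conj_mem_SR h u⟩
  have h1 := conj_mem_SR h u⁻¹
  have h2 : ((u⁻¹ : (Matrix ι ι F)ˣ) : Matrix ι ι F) * ((u : Matrix ι ι F) * g *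
      ((u⁻¹ : (Matrix ι ι F)ˣ) : Matrix ι ι F)) * (((u⁻¹)⁻¹ : (Matrix ι ι F)ˣ) : Matrix ι ι F) =
      g := by
    rw [_root_.inv_inv, mul_assoc, mul_assoc, mul_assoc, Units.inv_mul, mul_one, ← mul_assoc,
      Units.inv_mul, one_mul]
  rwa [h2] at h1

theorem sl_mul_inv (h : SpecialLinearGroup ι F) :
    (h : Matrix ι ι F) * ((h⁻¹ : SpecialLinearGroup ι F) : Matrix ι ι F) = 1 := by
  have h1 : (h * h⁻¹ : SpecialLinearGroup ι F) = 1 := mul_inv_cancel h
  have h2 := congrArg (fun x : SpecialLinearGroup ι F => (x : Matrix ι ι F)) h1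
  exact h2

theorem sl_inv_mul (h : SpecialLinearGroup ι F) :
    ((h⁻¹ : SpecialLinearGroup ι F) : Matrix ι ι F) * (h : Matrix ι ι F) = 1 := by
  have h1 : (h⁻¹ * h : SpecialLinearGroup ι F) = 1 := inv_mul_cancel h
  have h2 := congrArg (fun x : SpecialLinearGroup ι F => (x : Matrix ι ι F)) h1
  exact h2

/-- The unit of a matrix of determinant one. -/
def slU (h : SpecialLinearGroup ι F) : (Matrix ι ι F)ˣ where
  val := h
  inv := ((h⁻¹ : SpecialLinearGroup ι F) : Matrix ι ι F)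
  val_inv := sl_mul_inv h
  inv_val := sl_inv_mul h

/-- A conjugating matrix of determinant one. -/
theorem exists_sl [Nonempty ι] {g : Matrix ι ι F} (hg : g ∈ SR ι F) :
    ∃ (h : SpecialLinearGroup ι F) (a : ι → F), Function.Injective a ∧
      g = (h : Matrix ι ι F) * diagonal a * ((h⁻¹ : SpecialLinearGroup ι F) : Matrix ι ι F) := by
  obtain ⟨h, a, ha, rfl⟩ := hg
  let i₀ : ι := Classical.arbitrary ι
  have hdet : (h : Matrix ι ι F).det ≠ 0 := by
    have := (Matrix.isUnit_iff_isUnit_det (h : Matrix ι ι F)).mp h.isUnit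
    exact this.ne_zero
  let t : ι → F := Function.update (fun _ => 1) i₀ ((h : Matrix ι ι F).det)⁻¹
  have ht : ∏ i, t i = ((h : Matrix ι ι F).det)⁻¹ := by
    rw [Finset.prod_update_of_mem (Finset.mem_univ _)]
    simp
  have ht0 : ∀ i, t i ≠ 0 := by
    intro i
    have h1 : ∏ i, t i ≠ 0 := by rw [ht]; exact inv_ne_zero hdet
    exact Finset.prod_ne_zero_iff.mp h1 i (Finset.mem_univ _)
  have hd : ((h : Matrix ι ι F) * diagonal t).det = 1 := by
    rw [det_mul, det_diagonal, ht, mul_inv_cancel₀ hdet]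
  let h' : SpecialLinearGroup ι F := ⟨(h : Matrix ι ι F) * diagonal t, hd⟩
  have hc : (h' : Matrix ι ι F) = (h : Matrix ι ι F) * diagonal t := rfl
  refine ⟨h', a, ha, ?_⟩
  have h1 : (h' : Matrix ι ι F) * diagonal a = (h : Matrix ι ι F) * diagonal a * diagonal t := by
    rw [hc, mul_assoc, mul_assoc, diagonal_mul_diagonal, diagonal_mul_diagonal]
    congr 2
    funext i
    exact mul_comm _ _
  have h2 : diagonal t * ((h'⁻¹ : SpecialLinearGroup ι F) : Matrix ι ι F) =
      ((h⁻¹ : (Matrix ι ι F)ˣ) : Matrix ι ι F) := by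
    have h3 : (h : Matrix ι ι F) * (diagonal t *
        ((h'⁻¹ : SpecialLinearGroup ι F) : Matrix ι ι F)) = 1 := by
      rw [← mul_assoc, ← hc, sl_mul_inv]
    calc diagonal t * ((h'⁻¹ : SpecialLinearGroup ι F) : Matrix ι ι F)
        = ((h⁻¹ : (Matrix ι ι F)ˣ) : Matrix ι ι F) * ((h : Matrix ι ι F) * (diagonal t *
        ((h'⁻¹ : SpecialLinearGroup ι F) : Matrix ι ι F))) := by
          rw [← mul_assoc _ (h : Matrix ι ι F), Units.inv_mul, one_mul]
      _ = _ := by rw [h3, mul_one]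
  rw [h1, mul_assoc _ (diagonal t), h2]

/-- A split regular matrix commutes with the conjugates of the diagonal matrices. -/
theorem exists_sl_commute [Nonempty ι] {g : Matrix ι ι F} (hg : g ∈ SR ι F) :
    ∃ h : SpecialLinearGroup ι F, ∀ z : ι → F,
      Commute g ((h : Matrix ι ι F) * diagonal z *
        ((h⁻¹ : SpecialLinearGroup ι F) : Matrix ι ι F)) := by
  obtain ⟨h, a, -, rfl⟩ := exists_sl hg
  refine ⟨h, fun z => ?_⟩
  have key : ∀ x y : ι → F, (h : Matrix ι ι F) * diagonal x *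
      ((h⁻¹ : SpecialLinearGroup ι F) : Matrix ι ι F) * ((h : Matrix ι ι F) * diagonal y *
      ((h⁻¹ : SpecialLinearGroup ι F) : Matrix ι ι F)) = (h : Matrix ι ι F) *
      diagonal (fun i => x i * y i) * ((h⁻¹ : SpecialLinearGroup ι F) : Matrix ι ι F) := by
    intro x y
    rw [← diagonal_mul_diagonal]
    calc _ = (h : Matrix ι ι F) * diagonal x *
      (((h⁻¹ : SpecialLinearGroup ι F) : Matrix ι ι F) * (h : Matrix ι ι F)) * (diagonal y *
      ((h⁻¹ : SpecialLinearGroup ι F) : Matrix ι ι F)) := by simp only [mul_assoc]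
      _ = _ := by rw [sl_inv_mul, mul_one]; simp only [mul_assoc]
  rw [Commute, SemiconjBy, key, key]
  congr 3
  funext i
  exact mul_comm _ _

theorem map_mem_SR {F' : Type*} [Field F'] (φ : F' →+* F) {g : Matrix ι ι F'}
    (hg : g ∈ SR ι F') : φ.mapMatrix g ∈ SR ι F := by
  obtain ⟨h, a, ha, rfl⟩ := hg
  refine ⟨Units.map (φ.mapMatrix (m := ι) : Matrix ι ι F' →* Matrix ι ι F) h,
    fun i => φ (a i), φ.injective.comp ha, ?_⟩
  rw [map_mul, map_mul]
  have h2 : φ.mapMatrix (diagonal a) = diagonal fun i => φ (a i) := by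
    ext i j
    by_cases hij : i = j
    · subst hij
      simp
    · simp [hij]
  rw [h2]
  rfl

/-- The diagonal part of a matrix. -/
def dg : Matrix ι ι F →ₗ[F] Matrix ι ι F where
  toFun z := diagonal fun i => z i i
  map_add' x y := by ext i j; by_cases h : i = j <;> simp [h]
  map_smul' c x := by ext i j; by_cases h : i = j <;> simp [h]

theorem dg_apply (z : Matrix ι ι F) : dg z = diagonal fun i => z i i := rfl

theorem dg_surj {a : ι → F} (ha : Function.Injective a) (w : Matrix ι ι F) :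
    ∃ z : Matrix ι ι F, dg z + (z - dg z) * diagonal a - diagonal a * (z - dg z) = w := by
  refine ⟨Matrix.of fun i j => if i = j then w i i else w i j / (a j - a i), ?_⟩
  ext i j
  by_cases h : i = j
  · subst h
    simp [dg_apply]
  · have h1 : a j - a i ≠ 0 := sub_ne_zero.mpr fun h2 => h (ha h2).symm
    simp only [dg_apply, Matrix.sub_apply, Matrix.add_apply, Matrix.mul_diagonal,
      Matrix.diagonal_mul, Matrix.of_apply, if_neg h, Matrix.diagonal_apply_ne _ h, sub_zero,
      zero_add]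
    field_simp

end alg

section top

variable {ι F : Type*} [Fintype ι] [DecidableEq ι] [NontriviallyNormedField F] [CompleteSpace F]

theorem eventually_conj_diagonal {a : ι → F} (ha : Function.Injective a)
    {V : Set (Matrix ι ι F)} (hV : V ∈ 𝓝 (0 : Matrix ι ι F)) :
    ∀ᶠ g in 𝓝 (diagonal a : Matrix ι ι F), ∃ z ∈ V, ∃ u : (Matrix ι ι F)ˣ,
      (u : Matrix ι ι F) = 1 + (z - dg z) ∧
      g = (u : Matrix ι ι F) * (diagonal a + dg z) *
        ((u⁻¹ : (Matrix ι ι F)ˣ) : Matrix ι ι F) := by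
  exact @eventually_conj' F (Matrix ι ι F) _ _ Matrix.linftyOpNormedRing
    Matrix.linftyOpNormedAlgebra _ (diagonal a) dg (dg_surj ha) V hV

theorem SR_mem_nhds_diagonal {a : ι → F} (ha : Function.Injective a) :
    SR ι F ∈ 𝓝 (diagonal a : Matrix ι ι F) := by
  have hi : {z : Matrix ι ι F | Function.Injective fun i => a i + z i i} ∈
      𝓝 (0 : Matrix ι ι F) := by
    have h7 : ∀ p : ι × ι, p.1 ≠ p.2 → ∀ᶠ z : Matrix ι ι F in 𝓝 (0 : Matrix ι ι F),
        a p.1 + z p.1 p.1 ≠ a p.2 + z p.2 p.2 := by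
      intro p hp
      have hc : Continuous fun z : Matrix ι ι F => a p.1 + z p.1 p.1 - (a p.2 + z p.2 p.2) := by
        have e1 : Continuous fun z : Matrix ι ι F => z p.1 p.1 := continuous_id.matrix_elem _ _
        have e2 : Continuous fun z : Matrix ι ι F => z p.2 p.2 := continuous_id.matrix_elem _ _
        fun_prop
      have h8 : (fun z : Matrix ι ι F => a p.1 + z p.1 p.1 - (a p.2 + z p.2 p.2)) 0 ≠ 0 := by
        simp only [Matrix.zero_apply, add_zero]
        exact sub_ne_zero.mpr fun h => hp (ha h)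
      filter_upwards [hc.continuousAt.eventually_ne h8] with z hz
      exact sub_ne_zero.mp hz
    have h9 : ∀ᶠ z : Matrix ι ι F in 𝓝 (0 : Matrix ι ι F), ∀ p : ι × ι, p.1 ≠ p.2 →
        a p.1 + z p.1 p.1 ≠ a p.2 + z p.2 p.2 := by
      rw [eventually_all]
      intro p
      by_cases hp : p.1 = p.2
      · exact Eventually.of_forall fun z h => absurd hp h
      · exact (h7 p hp).mono fun z hz _ => hz
    filter_upwards [h9] with z hz
    intro i j hij
    by_contra hne
    exact hz (i, j) hne hij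
  filter_upwards [eventually_conj_diagonal ha hi] with g hg
  obtain ⟨z, hz, u, -, rfl⟩ := hg
  refine ⟨u, fun i => a i + z i i, hz, ?_⟩
  rw [dg_apply, diagonal_add]

/-- **The split regular matrices over a complete field form an open set.** -/
theorem isOpen_SR : IsOpen (SR ι F) := by
  rw [isOpen_iff_mem_nhds]
  rintro g ⟨h, a, ha, rfl⟩
  have hc : Continuous fun x : Matrix ι ι F =>
      ((h⁻¹ : (Matrix ι ι F)ˣ) : Matrix ι ι F) * x * (h : Matrix ι ι F) :=
    (continuous_const.mul continuous_id).mul continuous_const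
  have h1 := hc.tendsto ((h : Matrix ι ι F) * diagonal a *
    ((h⁻¹ : (Matrix ι ι F)ˣ) : Matrix ι ι F))
  have h2 : ((h⁻¹ : (Matrix ι ι F)ˣ) : Matrix ι ι F) * ((h : Matrix ι ι F) * diagonal a *
    ((h⁻¹ : (Matrix ι ι F)ˣ) : Matrix ι ι F)) * (h : Matrix ι ι F) = diagonal a := by
    rw [mul_assoc, mul_assoc, mul_assoc, Units.inv_mul, mul_one, ← mul_assoc, Units.inv_mul,
      one_mul]
  rw [h2] at h1
  filter_upwards [h1 (SR_mem_nhds_diagonal ha)] with x hx
  have h3 := conj_mem_SR hx h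
  have h4 : (h : Matrix ι ι F) * (((h⁻¹ : (Matrix ι ι F)ˣ) : Matrix ι ι F) * x *
      (h : Matrix ι ι F)) * ((h⁻¹ : (Matrix ι ι F)ˣ) : Matrix ι ι F) = x := by
    rw [mul_assoc, mul_assoc, mul_assoc, Units.mul_inv, mul_one, ← mul_assoc, Units.mul_inv,
      one_mul]
  rwa [h4] at h3

/-- Transport of `isOpen_SR` to a topological field isomorphic to a complete normed field. -/
theorem isOpen_SR_of_equiv {F' : Type*} [Field F'] [TopologicalSpace F'] (e : F' ≃+* F)
    (he : Continuous e) : IsOpen (SR ι F') := by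
  have h1 : SR ι F' = (fun x : Matrix ι ι F' => x.map e) ⁻¹' SR ι F := by
    ext g
    constructor
    · exact fun hg => map_mem_SR e.toRingHom hg
    · intro hg
      have h2 : e.symm.toRingHom.mapMatrix (g.map e) = g := by
        ext i j
        simp
      rw [← h2]
      exact map_mem_SR e.symm.toRingHom hg
  rw [h1]
  exact isOpen_SR.preimage (continuous_id.matrix_map he)

end top

end Vale.Agent.P011.H210
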